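import Mathlib

/-!
P018, power saving, block G: for an irreducible quadratic polynomial `f` few `n ≤ X` have
`p ^ 2 ∣ f n` for a prime `p > X ^ (3 / 4)` (elementary gap argument for `u ^ 2 - M y ^ 2 = D`).
-/

open Polynomial

namespace Vale.Agent.P018.H867G

theorem eval_quad (f : ℤ[X]) (hd : f.natDegree = 2) (x : ℤ) :
    f.eval x = f.coeff 2 * x ^ 2 + f.coeff 1 * x + f.coeff 0 := by
  rw [Polynomial.eval_eq_sum_range, hd]
  simp only [Finset.sum_range_succ, Finset.sum_range_zero, pow_zero, pow_one, zero_add, mul_one]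
  ring

theorem disc_nonsq (f : ℤ[X]) (hd : f.natDegree = 2)
    (hirr : Irreducible (f.map (Int.castRingHom ℚ))) (s : ℤ) :
    s ^ 2 ≠ (f.coeff 1) ^ 2 - 4 * f.coeff 2 * f.coeff 0 := by
  intro hs
  have ha : f.coeff 2 ≠ 0 := by
    rw [← hd, ← Polynomial.leadingCoeff, Ne, Polynomial.leadingCoeff_eq_zero]
    rintro rfl
    simp at hd
  have haq : (f.coeff 2 : ℚ) ≠ 0 := by exact_mod_cast ha
  have hmd : (f.map (Int.castRingHom ℚ)).natDegree = 2 := by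
    rw [Polynomial.natDegree_map_eq_of_injective (RingHom.injective_int _), hd]
  have hroot : (f.map (Int.castRingHom ℚ)).IsRoot ((-(f.coeff 1 : ℚ) + s) / (2 * f.coeff 2)) := by
    rw [Polynomial.IsRoot, Polynomial.eval_eq_sum_range, hmd]
    simp only [Finset.sum_range_succ, Finset.sum_range_zero, pow_zero, pow_one, zero_add, mul_one,
      Polynomial.coeff_map, eq_intCast]
    have hs' : (s : ℚ) ^ 2 = (f.coeff 1 : ℚ) ^ 2 - 4 * f.coeff 2 * f.coeff 0 := by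
      exact_mod_cast hs
    field_simp
    linear_combination hs'
  have h1 := Polynomial.degree_eq_one_of_irreducible_of_root hirr hroot
  rw [Polynomial.degree_eq_natDegree hirr.ne_zero, hmd] at h1
  norm_num at h1

theorem le_of_sq_le {u y : ℤ} (hu : 0 ≤ u) (h : y ^ 2 ≤ u ^ 2) : y ≤ u :=
  le_of_abs_le ((sq_le_sq.1 h).trans (abs_of_nonneg hu).le)

/-- the gap principle -/
theorem gap {D M u₁ y₁ u₂ y₂ : ℤ} (hD : D ≠ 0) (hM : 4 ≤ M) (hu₁ : 0 ≤ u₁) (hu₂ : 0 ≤ u₂)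
    (hy₁ : 0 < y₁) (h12 : y₁ < y₂) (e₁ : u₁ ^ 2 - M * y₁ ^ 2 = D) (e₂ : u₂ ^ 2 - M * y₂ ^ 2 = D)
    (hb : |D| ≤ y₁ ^ 2) (c₁ : D ∣ u₁ - u₂) (c₂ : D ∣ y₁ - y₂) : 2 * y₁ ≤ y₂ := by
  have hDl : -(y₁ ^ 2) ≤ D := (neg_le_neg hb).trans (neg_abs_le D)
  have hy2 : y₁ ^ 2 ≤ y₂ ^ 2 := by nlinarith
  have hu1 : y₁ ≤ u₁ := le_of_sq_le hu₁ (by nlinarith)
  have hu2 : y₂ ≤ u₂ := le_of_sq_le hu₂ (by nlinarith)
  have hdvd : D ∣ u₁ * y₂ - u₂ * y₁ := by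
    have : u₁ * y₂ - u₂ * y₁ = (u₁ - u₂) * y₁ - u₁ * (y₁ - y₂) := by ring
    rw [this]
    exact dvd_sub (c₁.mul_right _) (c₂.mul_left _)
  have hprod : (u₁ * y₂ - u₂ * y₁) * (u₁ * y₂ + u₂ * y₁) = D * (y₂ ^ 2 - y₁ ^ 2) := by
    linear_combination y₂ ^ 2 * e₁ - y₁ ^ 2 * e₂
  have hpos : 0 < y₂ ^ 2 - y₁ ^ 2 := by nlinarith
  have hw : u₁ * y₂ - u₂ * y₁ ≠ 0 := by
    intro h
    rw [h, zero_mul] at hprod
    rcases mul_eq_zero.1 hprod.symm with h1 | h1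
    · exact hD h1
    · omega
  have hle : |D| ≤ |u₁ * y₂ - u₂ * y₁| := by
    rw [← Int.natCast_natAbs, ← Int.natCast_natAbs]
    exact_mod_cast Nat.le_of_dvd (Int.natAbs_pos.2 hw) (Int.natAbs_dvd_natAbs.2 hdvd)
  have hs0 : 0 ≤ u₁ * y₂ + u₂ * y₁ :=
    add_nonneg (mul_nonneg hu₁ (hy₁.trans h12).le) (mul_nonneg hu₂ hy₁.le)
  have habs : |u₁ * y₂ - u₂ * y₁| * (u₁ * y₂ + u₂ * y₁) = |D| * (y₂ ^ 2 - y₁ ^ 2) := by
    have h1 := congrArg abs hprod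
    rwa [abs_mul, abs_mul, abs_of_nonneg hs0, abs_of_pos hpos] at h1
  have hD0 : 0 < |D| := abs_pos.2 hD
  have hkey : u₁ * y₂ + u₂ * y₁ ≤ y₂ ^ 2 - y₁ ^ 2 := by
    have h1 : |D| * (u₁ * y₂ + u₂ * y₁) ≤ |D| * (y₂ ^ 2 - y₁ ^ 2) := by
      rw [← habs]
      exact mul_le_mul_of_nonneg_right hle hs0
    exact le_of_mul_le_mul_left h1 hD0
  by_contra hcon
  push Not at hcon
  nlinarith

/-- the natural number `|a| + |b| + |c|` -/
def hgt (f : ℤ[X]) : ℕ := (f.coeff 2).natAbs + (f.coeff 1).natAbs + (f.coeff 0).natAbs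

/-- the discriminant -/
def dsc (f : ℤ[X]) : ℤ := (f.coeff 1) ^ 2 - 4 * f.coeff 2 * f.coeff 0

theorem abs_eval_le (f : ℤ[X]) (hd : f.natDegree = 2) {X n : ℕ} (hn : 1 ≤ n) (hX : n ≤ X) :
    |f.eval (n : ℤ)| ≤ (hgt f : ℤ) * (X : ℤ) ^ 2 := by
  rw [eval_quad f hd]
  have hn' : (1 : ℤ) ≤ n := by exact_mod_cast hn
  have hX' : (n : ℤ) ≤ X := by exact_mod_cast hX
  have h1 : |f.coeff 2 * (n : ℤ) ^ 2 + f.coeff 1 * n + f.coeff 0| ≤
      |f.coeff 2| * (n : ℤ) ^ 2 + |f.coeff 1| * n + |f.coeff 0| := by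
    refine (abs_add_le _ _).trans (add_le_add ((abs_add_le _ _).trans ?_) le_rfl)
    rw [abs_mul, abs_mul, abs_pow, Nat.abs_cast]
  have h2 : (n : ℤ) ≤ (X : ℤ) ^ 2 := by nlinarith
  have h3 : (1 : ℤ) ≤ (X : ℤ) ^ 2 := by nlinarith
  have h4 : (n : ℤ) ^ 2 ≤ (X : ℤ) ^ 2 := by nlinarith
  have e : (hgt f : ℤ) = |f.coeff 2| + |f.coeff 1| + |f.coeff 0| := by
    rw [hgt]; push_cast; rfl
  rw [e]
  have k1 := mul_le_mul_of_nonneg_left h4 (abs_nonneg (f.coeff 2))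
  have k2 := mul_le_mul_of_nonneg_left h2 (abs_nonneg (f.coeff 1))
  have k3 := mul_le_mul_of_nonneg_left h3 (abs_nonneg (f.coeff 0))
  linarith

theorem card_bound (f : ℤ[X]) (hd : f.natDegree = 2)
    (hirr : Irreducible (f.map (Int.castRingHom ℚ))) {X : ℕ} (hX : 1 ≤ X)
    (hDX : (dsc f).natAbs ≤ X) (S : Finset ℕ)
    (hS : ∀ n ∈ S, 1 ≤ n ∧ n ≤ X ∧ ∃ p : ℕ, X ^ 3 < p ^ 4 ∧ (p : ℤ) ^ 2 ∣ f.eval (n : ℤ)) :
    S.card ≤ (2 * (hgt f * (Nat.sqrt X + 1)) + 1) * (2 * ((dsc f).natAbs * ((dsc f).natAbs *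
      (Nat.log 2 (hgt f * X) + 1)))) := by
  classical
  set A := hgt f with hA
  set D := dsc f with hD
  have hD0 : D ≠ 0 := by
    intro h
    exact disc_nonsq f hd hirr 0 (by rw [← dsc, ← hD, h]; norm_num)
  have ha : f.coeff 2 ≠ 0 := by
    rw [← hd, ← Polynomial.leadingCoeff, Ne, Polynomial.leadingCoeff_eq_zero]
    rintro rfl
    simp at hd
  choose! p hp using fun n hn => (hS n hn).2.2
  choose! m hm using fun n hn => (hp n hn).2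
  let u : ℕ → ℤ := fun n => 2 * f.coeff 2 * n + f.coeff 1
  have hu : ∀ n ∈ S, u n ^ 2 - 4 * f.coeff 2 * m n * (p n : ℤ) ^ 2 = D := by
    intro n hn
    have h1 := hm n hn
    rw [eval_quad f hd] at h1
    change (2 * f.coeff 2 * (n : ℤ) + f.coeff 1) ^ 2 - _ = (f.coeff 1) ^ 2 - 4 * f.coeff 2 * f.coeff 0
    linear_combination 4 * f.coeff 2 * h1
  have hm0 : ∀ n ∈ S, m n ≠ 0 := by
    intro n hn h
    have h1 := hu n hn
    rw [h, mul_zero, zero_mul, sub_zero] at h1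
    exact disc_nonsq f hd hirr _ h1
  have hpX : ∀ n ∈ S, X < p n ^ 2 := by
    intro n hn
    have h1 := (hp n hn).1
    by_contra hcon
    push Not at hcon
    have h2 : (p n ^ 2) ^ 2 ≤ X ^ 2 := Nat.pow_le_pow_left hcon 2
    have h3 : X ^ 2 ≤ X ^ 3 := Nat.pow_le_pow_right hX (by norm_num)
    have h4 : p n ^ 4 = (p n ^ 2) ^ 2 := by ring
    omega
  have hDp : ∀ n ∈ S, |D| < (p n : ℤ) ^ 2 := by
    intro n hn
    have h1 := hpX n hn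
    have h2 : D.natAbs < p n ^ 2 := lt_of_le_of_lt hDX h1
    rw [← Int.natCast_natAbs]
    exact_mod_cast h2
  have hp0 : ∀ n ∈ S, 0 < p n := by
    intro n hn
    rcases Nat.eq_zero_or_pos (p n) with h | h
    · have := hpX n hn
      rw [h] at this
      simp at this
    · exact h
  have hM : ∀ n ∈ S, 4 ≤ 4 * f.coeff 2 * m n := by
    intro n hn
    have h1 := hu n hn
    have h2 := hDp n hn
    have h3 : f.coeff 2 * m n ≠ 0 := mul_ne_zero ha (hm0 n hn)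
    have h4 : 0 ≤ u n ^ 2 := sq_nonneg _
    have h5 : D ≤ |D| := le_abs_self D
    have h5' : -|D| ≤ D := neg_abs_le D
    rcases lt_or_gt_of_ne h3 with h6 | h6
    · exfalso
      have h7 : f.coeff 2 * m n ≤ -1 := by omega
      nlinarith
    · nlinarith
  have hmb : ∀ n ∈ S, m n ∈ Finset.Icc (-((A * (Nat.sqrt X + 1) : ℕ) : ℤ))
      ((A * (Nat.sqrt X + 1) : ℕ) : ℤ) := by
    intro n hn
    obtain ⟨hn1, hn2, -⟩ := hS n hn
    have h1 := abs_eval_le f hd hn1 hn2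
    rw [hm n hn, abs_mul, abs_pow, Nat.abs_cast] at h1
    have h2 : p n ^ 2 * (m n).natAbs ≤ A * X ^ 2 := by
      have : ((p n ^ 2 * (m n).natAbs : ℕ) : ℤ) ≤ ((A * X ^ 2 : ℕ) : ℤ) := by
        push_cast
        exact h1
      exact_mod_cast this
    have h3 : (p n ^ 2 * (m n).natAbs) ^ 2 ≤ (A * X ^ 2) ^ 2 := Nat.pow_le_pow_left h2 2
    have h4 : X ^ 3 * (m n).natAbs ^ 2 ≤ X ^ 3 * (A ^ 2 * X) := by
      calc X ^ 3 * (m n).natAbs ^ 2 ≤ p n ^ 4 * (m n).natAbs ^ 2 :=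
            Nat.mul_le_mul_right _ (hp n hn).1.le
        _ = (p n ^ 2 * (m n).natAbs) ^ 2 := by ring
        _ ≤ (A * X ^ 2) ^ 2 := h3
        _ = X ^ 3 * (A ^ 2 * X) := by ring
    have h5 : (m n).natAbs ^ 2 ≤ A ^ 2 * X := Nat.le_of_mul_le_mul_left h4 (by positivity)
    have h6 : X < (Nat.sqrt X + 1) ^ 2 := by
      have := Nat.lt_succ_sqrt X
      rw [pow_two]
      exact this
    have h7 : (m n).natAbs ≤ A * (Nat.sqrt X + 1) := by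
      have h8 : (m n).natAbs ^ 2 ≤ (A * (Nat.sqrt X + 1)) ^ 2 := by
        calc (m n).natAbs ^ 2 ≤ A ^ 2 * X := h5
          _ ≤ A ^ 2 * (Nat.sqrt X + 1) ^ 2 := Nat.mul_le_mul_left _ h6.le
          _ = _ := by ring
      exact (Nat.pow_le_pow_iff_left (by norm_num)).1 h8
    rw [Finset.mem_Icc]
    omega
  have hlog : ∀ n ∈ S, Nat.log 2 (p n) < Nat.log 2 (A * X) + 1 := by
    intro n hn
    obtain ⟨hn1, hn2, -⟩ := hS n hn
    have h1 := abs_eval_le f hd hn1 hn2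
    rw [hm n hn, abs_mul, abs_pow, Nat.abs_cast] at h1
    have hm1 : 1 ≤ |m n| := Int.one_le_abs (hm0 n hn)
    have h2 : (p n : ℤ) ^ 2 ≤ A * X ^ 2 := by
      have : (p n : ℤ) ^ 2 * 1 ≤ (p n : ℤ) ^ 2 * |m n| :=
        mul_le_mul_of_nonneg_left hm1 (by positivity)
      linarith
    have h3 : p n ^ 2 ≤ A * X ^ 2 := by exact_mod_cast h2
    have hA1 : 1 ≤ A := by
      have : (f.coeff 2).natAbs ≠ 0 := by simpa using ha
      rw [hA, hgt]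
      omega
    have h4 : p n ^ 2 ≤ (A * X) ^ 2 := by
      calc p n ^ 2 ≤ A * X ^ 2 := h3
        _ ≤ A ^ 2 * X ^ 2 := Nat.mul_le_mul_right _ (by nlinarith)
        _ = _ := by ring
    have h5 : p n ≤ A * X := (Nat.pow_le_pow_iff_left (by norm_num)).1 h4
    exact Nat.lt_succ_of_le (Nat.log_mono_right h5)
  have hDpos : (0 : ℤ) < |D| := abs_pos.2 hD0
  let g : ℕ → ℤ × Bool × ℤ × ℤ × ℕ := fun n =>
    (m n, decide (0 ≤ u n), |u n| % |D|, (p n : ℤ) % |D|, Nat.log 2 (p n))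
  let T : Finset (ℤ × Bool × ℤ × ℤ × ℕ) :=
    (Finset.Icc (-((A * (Nat.sqrt X + 1) : ℕ) : ℤ)) ((A * (Nat.sqrt X + 1) : ℕ) : ℤ)) ×ˢ
      ((Finset.univ : Finset Bool) ×ˢ ((Finset.Ico (0 : ℤ) |D|) ×ˢ ((Finset.Ico (0 : ℤ) |D|) ×ˢ
        Finset.range (Nat.log 2 (A * X) + 1))))
  have hTc : T.card = (2 * (A * (Nat.sqrt X + 1)) + 1) * (2 * (D.natAbs * (D.natAbs *
      (Nat.log 2 (A * X) + 1)))) := by
    simp only [T, Finset.card_product, Int.card_Icc, Int.card_Ico, Finset.card_univ,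
      Fintype.card_bool, Finset.card_range]
    congr 1
    · omega
    · have : (|D| - 0).toNat = D.natAbs := by
        rw [sub_zero, ← Int.natCast_natAbs, Int.toNat_natCast]
      rw [this]
  rw [← hTc]
  refine Finset.card_le_card_of_injOn g ?_ ?_
  · intro n hn
    have hn' : n ∈ S := hn
    simp only [T, Finset.coe_product, Set.mem_prod, Finset.mem_coe, g, Finset.mem_univ,
      Finset.mem_Ico, Finset.mem_range, true_and]
    exact ⟨hmb n hn', ⟨Int.emod_nonneg _ hDpos.ne', Int.emod_lt_of_pos _ hDpos⟩,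
      ⟨Int.emod_nonneg _ hDpos.ne', Int.emod_lt_of_pos _ hDpos⟩, hlog n hn'⟩
  · intro n₁ hn₁ n₂ hn₂ hg
    have hn₁' : n₁ ∈ S := hn₁
    have hn₂' : n₂ ∈ S := hn₂
    simp only [g, Prod.mk.injEq] at hg
    obtain ⟨g1, g2, g3, g4, g5⟩ := hg
    have key : ∀ n₁ ∈ S, ∀ n₂ ∈ S, m n₁ = m n₂ → |u n₁| % |D| = |u n₂| % |D| →
        (p n₁ : ℤ) % |D| = (p n₂ : ℤ) % |D| → Nat.log 2 (p n₁) = Nat.log 2 (p n₂) →
        ¬ p n₁ < p n₂ := by
      intro n₁ h₁ n₂ h₂ e1 e2 e3 e4 hlt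
      have k1 := gap (D := D) (M := 4 * f.coeff 2 * m n₁) (u₁ := |u n₁|) (y₁ := p n₁)
        (u₂ := |u n₂|) (y₂ := p n₂) hD0 (hM n₁ h₁) (abs_nonneg _) (abs_nonneg _)
        (by exact_mod_cast hp0 n₁ h₁) (by exact_mod_cast hlt)
        (by rw [sq_abs]; exact hu n₁ h₁) (by rw [sq_abs, e1]; exact hu n₂ h₂) (hDp n₁ h₁).le
        ((abs_dvd _ _).1 (Int.ModEq.dvd (Int.ModEq.symm e2)))
        ((abs_dvd _ _).1 (Int.ModEq.dvd (Int.ModEq.symm e3)))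
      have k2 : 2 * p n₁ ≤ p n₂ := by exact_mod_cast k1
      have k3 : Nat.log 2 (p n₁ * 2) = Nat.log 2 (p n₁) + 1 :=
        Nat.log_mul_base (by norm_num) (hp0 n₁ h₁).ne'
      have k4 : Nat.log 2 (p n₁ * 2) ≤ Nat.log 2 (p n₂) := Nat.log_mono_right (by omega)
      omega
    have hpe : p n₁ = p n₂ := by
      rcases lt_trichotomy (p n₁) (p n₂) with h | h | h
      · exact absurd h (key n₁ hn₁' n₂ hn₂' g1 g3 g4 g5)
      · exact h
      · exact absurd h (key n₂ hn₂' n₁ hn₁' g1.symm g3.symm g4.symm g5.symm)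
    have hsq : u n₁ ^ 2 = u n₂ ^ 2 := by
      have h1 := hu n₁ hn₁'
      have h2 := hu n₂ hn₂'
      rw [g1, hpe] at h1
      linarith
    have hue : u n₁ = u n₂ := by
      rcases sq_eq_sq_iff_eq_or_eq_neg.1 hsq with h | h
      · exact h
      · have h0 : (0 ≤ u n₁) ↔ (0 ≤ u n₂) := by simpa using g2
        rcases le_or_gt 0 (u n₁) with h3 | h3
        · have := h0.1 h3
          omega
        · have : ¬ (0 ≤ u n₂) := fun h4 => by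
            have := h0.2 h4
            omega
          omega
    have h1 : 2 * f.coeff 2 * ((n₁ : ℤ) - n₂) = 0 := by
      have : u n₁ - u n₂ = 0 := by rw [hue, sub_self]
      linear_combination this
    rcases mul_eq_zero.1 h1 with h2 | h2
    · exfalso
      rcases mul_eq_zero.1 h2 with h3 | h3
      · norm_num at h3
      · exact ha h3
    · omega

theorem log_le_rpow (A X : ℕ) : ((Nat.log 2 (A * X) : ℕ) : ℝ) ≤
    4 / Real.log 2 * (A : ℝ) ^ (1 / 4 : ℝ) * (X : ℝ) ^ (1 / 4 : ℝ) := by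
  have h1 : ((Nat.log 2 (A * X) : ℕ) : ℝ) ≤ Real.logb 2 ((A * X : ℕ) : ℝ) :=
    Real.natLog_le_logb _ _
  have h2 : Real.log ((A * X : ℕ) : ℝ) ≤ ((A * X : ℕ) : ℝ) ^ (1 / 4 : ℝ) / (1 / 4) :=
    Real.log_le_rpow_div (Nat.cast_nonneg _) (by norm_num)
  have h3 : ((A * X : ℕ) : ℝ) ^ (1 / 4 : ℝ) = (A : ℝ) ^ (1 / 4 : ℝ) * (X : ℝ) ^ (1 / 4 : ℝ) := by
    rw [Nat.cast_mul, Real.mul_rpow (Nat.cast_nonneg _) (Nat.cast_nonneg _)]
  have h4 : 0 < Real.log 2 := Real.log_pos (by norm_num)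
  refine h1.trans ?_
  rw [Real.logb, div_le_iff₀ h4]
  refine h2.trans ?_
  rw [h3]
  field_simp
  exact le_rfl

open Classical in
/-- **Block G**: an irreducible quadratic polynomial is rarely divisible by the square of a prime
larger than `X ^ (3 / 4)`. -/
theorem quad_tail (f : ℤ[X]) (hd : f.natDegree = 2)
    (hirr : Irreducible (f.map (Int.castRingHom ℚ))) : ∃ e d C : ℝ, 0 < e ∧ e < 1 ∧ 0 < d ∧
      0 ≤ C ∧ ∀ X : ℕ, 1 ≤ X → (((Finset.Icc 1 X).filter (fun n : ℕ => ∃ p : ℕ, p.Prime ∧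
        (X : ℝ) ^ (1 - e) < p ∧ (p : ℤ) ^ 2 ∣ f.eval (n : ℤ))).card : ℝ) ≤
          C * (X : ℝ) ^ (1 - d) := by
  set A := hgt f with hA
  set D := (dsc f).natAbs with hD
  let C1 : ℝ := (4 * A + 1) * (2 * (D * (D * (4 / Real.log 2 * (A : ℝ) ^ (1 / 4 : ℝ) + 1))))
  have h4 : 0 < Real.log 2 := Real.log_pos (by norm_num)
  have hC1 : 0 ≤ C1 := by positivity
  refine ⟨1 / 4, 1 / 4, D + C1, by norm_num, by norm_num, by norm_num, by positivity, ?_⟩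
  intro X hX
  have hXr : (1 : ℝ) ≤ X := by exact_mod_cast hX
  have hX0 : (0 : ℝ) < X := by linarith
  have hpow1 : (1 : ℝ) ≤ (X : ℝ) ^ (1 - 1 / 4 : ℝ) := Real.one_le_rpow hXr (by norm_num)
  set S := (Finset.Icc 1 X).filter (fun n : ℕ => ∃ p : ℕ, p.Prime ∧
        (X : ℝ) ^ (1 - 1 / 4 : ℝ) < p ∧ (p : ℤ) ^ 2 ∣ f.eval (n : ℤ)) with hSdef
  by_cases hDX : D ≤ X
  · have hS : ∀ n ∈ S, 1 ≤ n ∧ n ≤ X ∧ ∃ p : ℕ, X ^ 3 < p ^ 4 ∧
        (p : ℤ) ^ 2 ∣ f.eval (n : ℤ) := by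
      intro n hn
      rw [hSdef, Finset.mem_filter, Finset.mem_Icc] at hn
      obtain ⟨⟨h1, h2⟩, p, hp, h3, h5⟩ := hn
      refine ⟨h1, h2, p, ?_, h5⟩
      have h6 : ((X : ℝ) ^ (1 - 1 / 4 : ℝ)) ^ 4 < (p : ℝ) ^ 4 :=
        pow_lt_pow_left₀ h3 (by positivity) (by norm_num)
      have h7 : ((X : ℝ) ^ (1 - 1 / 4 : ℝ)) ^ 4 = (X : ℝ) ^ 3 := by
        rw [← Real.rpow_natCast, ← Real.rpow_mul hX0.le, ← Real.rpow_natCast]
        norm_num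
      rw [h7] at h6
      exact_mod_cast h6
    have hc := card_bound f hd hirr hX hDX S hS
    have hcr : (S.card : ℝ) ≤ (2 * (A * ((Nat.sqrt X : ℝ) + 1)) + 1) * (2 * (D * (D *
        (((Nat.log 2 (A * X) : ℕ) : ℝ) + 1)))) := by
      exact_mod_cast hc
    have hs1 : (Nat.sqrt X : ℝ) ≤ (X : ℝ) ^ (1 / 2 : ℝ) := by
      rw [← Real.sqrt_eq_rpow]
      exact Real.nat_sqrt_le_real_sqrt
    have hs2 : (1 : ℝ) ≤ (X : ℝ) ^ (1 / 2 : ℝ) := Real.one_le_rpow hXr (by norm_num)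
    have hs3 : (1 : ℝ) ≤ (X : ℝ) ^ (1 / 4 : ℝ) := Real.one_le_rpow hXr (by norm_num)
    have hA0 : (0 : ℝ) ≤ A := Nat.cast_nonneg _
    have hf1 : 2 * (A * ((Nat.sqrt X : ℝ) + 1)) + 1 ≤ (4 * A + 1) * (X : ℝ) ^ (1 / 2 : ℝ) := by
      nlinarith [mul_le_mul_of_nonneg_left hs1 hA0, mul_le_mul_of_nonneg_left hs2 hA0]
    have hf2 : ((Nat.log 2 (A * X) : ℕ) : ℝ) + 1 ≤
        (4 / Real.log 2 * (A : ℝ) ^ (1 / 4 : ℝ) + 1) * (X : ℝ) ^ (1 / 4 : ℝ) := by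
      have := log_le_rpow A X
      linarith
    have hx : (X : ℝ) ^ (1 / 2 : ℝ) * (X : ℝ) ^ (1 / 4 : ℝ) = (X : ℝ) ^ (1 - 1 / 4 : ℝ) := by
      rw [← Real.rpow_add hX0]
      norm_num
    calc (S.card : ℝ) ≤ (2 * (A * ((Nat.sqrt X : ℝ) + 1)) + 1) * (2 * (D * (D *
          (((Nat.log 2 (A * X) : ℕ) : ℝ) + 1)))) := hcr
      _ ≤ ((4 * A + 1) * (X : ℝ) ^ (1 / 2 : ℝ)) * (2 * (D * (D *
          ((4 / Real.log 2 * (A : ℝ) ^ (1 / 4 : ℝ) + 1) * (X : ℝ) ^ (1 / 4 : ℝ))))) := by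
          gcongr
      _ = C1 * ((X : ℝ) ^ (1 / 2 : ℝ) * (X : ℝ) ^ (1 / 4 : ℝ)) := by
          simp only [C1]
          ring
      _ = C1 * (X : ℝ) ^ (1 - 1 / 4 : ℝ) := by rw [hx]
      _ ≤ (D + C1) * (X : ℝ) ^ (1 - 1 / 4 : ℝ) := by
          have : (0 : ℝ) ≤ D := Nat.cast_nonneg _
          gcongr
          linarith
  · have h1 : S.card ≤ X := by
      have := Finset.card_filter_le (Finset.Icc 1 X) (fun n : ℕ => ∃ p : ℕ, p.Prime ∧
        (X : ℝ) ^ (1 - 1 / 4 : ℝ) < p ∧ (p : ℤ) ^ 2 ∣ f.eval (n : ℤ))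
      rw [Nat.card_Icc, Nat.add_sub_cancel] at this
      exact this
    have h2 : (S.card : ℝ) ≤ D := by
      have : S.card ≤ D := by omega
      exact_mod_cast this
    have h3 : (0 : ℝ) ≤ D := Nat.cast_nonneg _
    nlinarith

end Vale.Agent.P018.H867G
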